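import Vale.Agent.P181.EX.Defs
import Vale.Agent.P181.DG2.H398.Up

set_option autoImplicit false

/-!
# P181, EX, E2: `UpC`, the leading content of a closed family is closed
-/

open MvPolynomial

namespace Vale.Agent.P181.EX.H398

open Vale.Agent.P181.T4 (HW rowOp rowOp_apply mem_HW)
open Vale.Agent.P181.SZR4 (vm vm_injective coeff_ren rowOp_ren)
open Vale.Agent.P181.DG
open Vale.Agent.P181.DG2.H398

/-- families of polynomials with bounded exponents -/
lemma fd_fam {m : ℕ} {ι : Type} [Fintype ι] {V : Submodule ℂ (Fin m → MvPolynomial ι ℂ)} (N : ℕ)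
    (h : ∀ g ∈ V, ∀ k v, coeff v (g k) ≠ 0 → ∀ p, v p < N) : FiniteDimensional ℂ V := by
  classical
  let e : (ι → Fin N) → (ι →₀ ℕ) := fun u => Finsupp.equivFunOnFinite.symm (fun p => (u p : ℕ))
  let L : V →ₗ[ℂ] (Fin m × (ι → Fin N) → ℂ) :=
    { toFun := fun f u => coeff (e u.2) (f.1 u.1)
      map_add' := fun f g => by funext u; exact coeff_add _ _ _
      map_smul' := fun c f => by funext u; exact coeff_smul _ _ _ }
  have hL : Function.Injective L := by
    rw [← LinearMap.ker_eq_bot, LinearMap.ker_eq_bot']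
    intro f hf
    apply Subtype.ext
    funext k
    apply MvPolynomial.ext
    intro v
    rw [ZeroMemClass.coe_zero, Pi.zero_apply, coeff_zero]
    by_contra hv
    have h1 := h f.1 f.2 k v hv
    have h5 := congrFun hf (k, fun p => ⟨v p, h1 p⟩)
    apply hv
    have h6 : e (fun p => ⟨v p, h1 p⟩) = v := by
      ext p
      rfl
    have h7 : coeff (e (fun p => ⟨v p, h1 p⟩)) (f.1 k) = 0 := h5
    rwa [h6] at h7
  exact FiniteDimensional.of_injective L hL

lemma lt_of_weight {m : ℕ} {τ : Type} [Fintype τ] {mu : Fin m → ℕ} {k : Fin m}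
    {v : Fin m × τ →₀ ℕ} (h : ∀ i, ∑ j, v (i, j) + (if i = k then 1 else 0) = mu i)
    (p : Fin m × τ) : v p < (∑ i, mu i) + 1 := by
  have h2 := h p.1
  have h3 : v p ≤ ∑ j, v (p.1, j) :=
    Finset.single_le_sum (f := fun j => v (p.1, j)) (fun j _ => Nat.zero_le _)
      (Finset.mem_univ p.2)
  have h4 : mu p.1 ≤ ∑ i, mu i :=
    Finset.single_le_sum (fun i _ => Nat.zero_le (mu i)) (Finset.mem_univ p.1)
  omega

instance fd_CK (m S : ℕ) (σ : Type) [Fintype σ] (d : σ → ℕ) (t : ℕ) (mu : Fin m → ℕ) :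
    FiniteDimensional ℂ (CK m S σ d t mu) :=
  fd_fam ((∑ i, mu i) + 1) fun _ hg k v hv p => lt_of_weight (hg.1 k v hv) p

instance fd_QC (b a m : ℕ) (mu : Fin m → ℕ) : FiniteDimensional ℂ (QC b a m mu) :=
  fd_fam ((∑ i, mu i) + 1) fun _ hg k v hv p => lt_of_weight (hg.1 k v hv) p

section part

variable {m S t : ℕ} {σ : Type} [Fintype σ] {d : σ → ℕ} {mu : Fin m → ℕ}

open scoped Classical in
lemma coeff_small {f : MvPolynomial (Fin m × (σ ⊕ Fin t)) ℂ}
    (hv : ∀ u : Fin m × (σ ⊕ Fin t) →₀ ℕ, PP S d u → ∀ i j,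
      ¬ PP S d (u + Finsupp.single (i, j) 1) → coeff (u + Finsupp.single (i, j) 1) f = 0)
    (i : Fin m) (u : Fin m × (σ ⊕ Fin t) →₀ ℕ) :
    coeff u (∑ j : Fin t, pderiv (i, (Sum.inr j : σ ⊕ Fin t)) (fp (PP S d) f)) =
      if PP S d u then coeff u (∑ j, pderiv (i, j) f) else 0 := by
  by_cases hu : PP S d u
  · rw [if_pos hu, coeff_sum, coeff_sum]
    have h1 : ∀ j : σ ⊕ Fin t, coeff u (pderiv (i, j) (fp (PP S d) f)) =
        coeff u (pderiv (i, j) f) := by
      intro j
      rw [coeff_pderiv, coeff_pderiv]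
      congr 1
      by_cases h : PP S d (u + Finsupp.single (i, j) 1)
      · exact coeff_fp_of f h
      · rw [coeff_fp_not f h, hv u hu i j h]
    have h2 : ∀ j : σ, coeff u (pderiv (i, Sum.inl j) (fp (PP S d) f)) = 0 := by
      intro j
      rw [coeff_pderiv, coeff_fp_not, zero_mul]
      intro h
      have h3 := h.1 j
      have h4 := cs_add_single u i (Sum.inl j : σ ⊕ Fin t) (Sum.inl j)
      rw [if_pos rfl] at h4
      have h5 := hu.1 j
      have h6 : cs (u + Finsupp.single (i, Sum.inl j) 1) (Sum.inl j) = d j := h3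
      have h7 : cs u (Sum.inl j) = d j := h5
      omega
    rw [← Finset.sum_congr rfl fun j _ => h1 j, Fintype.sum_sum_type,
      Finset.sum_eq_zero fun j _ => h2 j, zero_add]
  · rw [if_neg hu, coeff_sum]
    refine Finset.sum_eq_zero fun j _ => ?_
    rw [coeff_pderiv, coeff_fp_not, zero_mul]
    intro h
    apply hu
    have h4 := fun k => cs_add_single u i (Sum.inr j : σ ⊕ Fin t) k
    refine ⟨fun j' => ?_, fun j' => ?_⟩
    · have h5 := h4 (Sum.inl j')
      rw [if_neg (by simp)] at h5
      rw [← h.1 j']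
      exact h5.symm
    · have h5 := h4 (Sum.inr j')
      have h6 : cs (u + Finsupp.single (i, Sum.inr j) 1) (Sum.inr j') < S := h.2 j'
      have h7 : cs u (Sum.inr j') < S := by omega
      exact h7

/-- **the part of a closed family whose neighbouring parts vanish is closed** -/
lemma fp_mem_CK {g : Fin m → MvPolynomial (Fin m × (σ ⊕ Fin t)) ℂ}
    (hw : ∀ k v, coeff v (g k) ≠ 0 → ∀ i, ∑ j, v (i, j) + (if i = k then 1 else 0) = mu i)
    (hs : ∀ k (e : Equiv.Perm (σ ⊕ Fin t)), rename (vm m e) (g k) = g k)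
    (hr : ∀ s i : Fin m, s < i → ∀ k, rowOp s i (g k) = if k = s then - g i else 0)
    (hd : ∀ i k, ∑ j, pderiv (i, j) (g k) = ∑ j, pderiv (k, j) (g i))
    (hv : ∀ k, ∀ u : Fin m × (σ ⊕ Fin t) →₀ ℕ, PP S d u → ∀ i j,
      ¬ PP S d (u + Finsupp.single (i, j) 1) → coeff (u + Finsupp.single (i, j) 1) (g k) = 0) :
    (fun k => fp (PP S d) (g k)) ∈ CK m S σ d t mu := by
  classical
  refine ⟨fun k v hv' => hw k v (of_coeff_fp hv').2, fun k v hv' => (of_coeff_fp hv').1,
    fun k e s he => ?_, fun s i h k => ?_, fun i k => ?_⟩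
  · have h1 : (fun p : Fin m × (σ ⊕ Fin t) => (p.1, Sum.map e s p.2)) =
        vm m (Equiv.sumCongr e s) := by
      funext p
      rfl
    rw [h1, fp_rename _ (g k), hs]
    intro v
    have h2 : ∀ j, ∑ i, v.mapDomain (vm m (Equiv.sumCongr e s)) (i, Equiv.sumCongr e s j) =
        ∑ i, v (i, j) := fun j => cs_mapDomain (Equiv.sumCongr e s).injective v j
    constructor
    · rintro ⟨h3, h4⟩
      refine ⟨fun j => ?_, fun j => ?_⟩
      · rw [← h2 (Sum.inl j), ← he j]
        exact h3 (e j)
      · rw [← h2 (Sum.inr j)]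
        exact h4 (s j)
    · rintro ⟨h3, h4⟩
      refine ⟨fun j => ?_, fun j => ?_⟩
      · obtain ⟨j, rfl⟩ := e.surjective j
        rw [he j, ← h3 j]
        exact h2 (Sum.inl j)
      · obtain ⟨j, rfl⟩ := s.surjective j
        have h5 := h4 j
        rw [← h2 (Sum.inr j)] at h5
        exact h5
  · have h1 : rowOp s i (fp (PP S d) (g k)) = fp (PP S d) (rowOp s i (g k)) := by
      apply fp_rowOp
      intro v w hvw
      unfold PP
      constructor
      · rintro ⟨h1, h2⟩
        exact ⟨fun j => by rw [← hvw]; exact h1 j, fun j => by rw [← hvw]; exact h2 j⟩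
      · rintro ⟨h1, h2⟩
        exact ⟨fun j => by rw [hvw]; exact h1 j, fun j => by rw [hvw]; exact h2 j⟩
    rw [h1, hr s i h k]
    split_ifs
    · rw [map_neg]
    · rw [map_zero]
  · ext u
    rw [coeff_small (hv k) i u, coeff_small (hv i) k u, hd i k]

end part

open scoped Classical in
/-- **(E2)** -/
theorem upC : UpC := by
  intro b a m S mu hS
  set s := (KT (∑ i, mu i) S).filter (fun k => Multiset.card k ≤ b ∧ ∀ x ∈ k, x ≤ a) with hs
  have hcard : ∀ k : {k // k ∈ s}, Multiset.card k.1 ≤ b := fun k =>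
    (Finset.mem_filter.1 k.2).2.1
  have hlarge : ∀ k ∈ s, ∀ x ∈ k, S ≤ x := by
    intro k hk x hx
    obtain ⟨u, -, hu⟩ := Finset.mem_biUnion.1 (Finset.mem_filter.1 hk).1
    exact (Finset.mem_filter.1 hu).2 x hx
  let W : {k // k ∈ s} → Type := fun k => Fin m →
    MvPolynomial (Fin m × (Fin k.1.toList.length ⊕ Fin (b - Multiset.card k.1))) ℂ
  let U : ∀ k : {k // k ∈ s}, Submodule ℂ (Fin m → MvPolynomial
      (Fin m × (Fin k.1.toList.length ⊕ Fin (b - Multiset.card k.1))) ℂ) := fun k =>
    CK m S (Fin k.1.toList.length) (fun j => k.1.toList.get j) (b - Multiset.card k.1) mu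
  let T' : ∀ k : {k // k ∈ s}, MvPolynomial (Fin m × Fin b) ℂ →ₗ[ℂ] MvPolynomial
      (Fin m × (Fin k.1.toList.length ⊕ Fin (b - Multiset.card k.1))) ℂ := fun k =>
    (fp (PP S fun j => k.1.toList.get j)) ∘ₗ (rename (vm m (EE k.1 (hcard k)))).toLinearMap
  let T : ∀ k : {k // k ∈ s}, (Fin m → MvPolynomial (Fin m × Fin b) ℂ) →ₗ[ℂ] (Fin m →
      MvPolynomial (Fin m × (Fin k.1.toList.length ⊕ Fin (b - Multiset.card k.1))) ℂ) := fun k =>
    (T' k).compLeft (Fin m)
  have hTk : ∀ k (g : Fin m → MvPolynomial (Fin m × Fin b) ℂ) i, T k g i = T' k (g i) :=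
    fun k g i => rfl
  -- the content of an exponent
  have hmem : ∀ g ∈ QC b a m mu, ∀ k v, coeff v (g k) ≠ 0 → ct S v ∈ s := by
    intro g hg k v hv
    have hsum : (ct S v).sum ≤ ∑ i, mu i := by
      rw [sum_ct]
      calc ∑ j, lg S (cs v j) ≤ ∑ j, cs v j := Finset.sum_le_sum fun j _ => by
            unfold lg
            split_ifs <;> omega
        _ = ∑ i, ∑ j, v (i, j) := Finset.sum_comm
        _ ≤ ∑ i, mu i := Finset.sum_le_sum fun i _ => by
            have := hg.1 k v hv i
            omega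
    rw [hs, Finset.mem_filter, KT, Finset.mem_biUnion]
    refine ⟨⟨(ct S v).sum, Finset.mem_range.2 (by omega), ?_⟩, card_ct_le S v, fun x hx => ?_⟩
    · rw [Finset.mem_filter, Finset.mem_image]
      refine ⟨⟨⟨ct S v, fun {x} hx => ?_, rfl⟩, Finset.mem_univ _, rfl⟩, fun x hx =>
        (Multiset.mem_filter.1 hx).2⟩
      have := (Multiset.mem_filter.1 hx).2
      omega
    · obtain ⟨j, -, rfl⟩ := Multiset.mem_map.1 (Multiset.mem_filter.1 hx).1
      exact hg.2.1 k v hv j
  have hdet : ∀ g ∈ QC b a m mu, ∀ k v, coeff v (g k) ≠ 0 → ∀ (hk : ct S v ∈ s),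
      T' ⟨ct S v, hk⟩ (g k) ≠ 0 := by
    intro g hg k v hv hk h0
    obtain ⟨e, he⟩ := exists_sorting hS v
    have h1 : rename (vm m (EE (ct S v) (hcard ⟨ct S v, hk⟩))) (g k) = rename (vm m e) (g k) := by
      have h2 := hg.2.2.1 k (e.trans (EE (ct S v) (hcard ⟨ct S v, hk⟩)).symm)
      conv_lhs => rw [← h2]
      rw [rename_rename]
      congr 2
      funext p
      exact Prod.ext rfl ((EE (ct S v) (hcard ⟨ct S v, hk⟩)).apply_symm_apply (e p.2))
    have h3 : coeff (v.mapDomain (vm m e)) (T' ⟨ct S v, hk⟩ (g k)) = coeff v (g k) := by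
      change coeff (v.mapDomain (vm m e)) (fp (PP S fun j => (ct S v).toList.get j)
        (rename (vm m (EE (ct S v) (hcard ⟨ct S v, hk⟩))) (g k))) = coeff v (g k)
      rw [coeff_fp_of _ he, h1]
      exact coeff_rename_mapDomain _ (vm_injective e.injective) (g k) v
    rw [h0, coeff_zero] at h3
    exact hv h3.symm
  have key := filt (K := {k // k ∈ s}) (fun k => k.1.sum) W U T Finset.univ (QC b a m mu)
    (by
      intro g hg k _ hk'
      have hE := (EE k.1 (hcard k)).injective
      change (fun i => fp (PP S fun j => k.1.toList.get j)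
        (rename (vm m (EE k.1 (hcard k))) (g i))) ∈ CK m S (Fin k.1.toList.length)
          (fun j => k.1.toList.get j) (b - Multiset.card k.1) mu
      apply fp_mem_CK (g := fun i => rename (vm m (EE k.1 (hcard k))) (g i))
      · intro l u hu i
        obtain ⟨v, hv, hv1, -⟩ := coeff_ren hE hu
        rw [← hg.1 l v hv i]
        congr 1
        symm
        exact Fintype.sum_equiv (EE k.1 (hcard k)) _ _ fun j => (hv1 i j).symm
      · intro l e
        change rename (vm m e) (rename (vm m (EE k.1 (hcard k))) (g l)) =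
          rename (vm m (EE k.1 (hcard k))) (g l)
        have h2 := hg.2.2.1 l (((EE k.1 (hcard k)).trans e).trans (EE k.1 (hcard k)).symm)
        conv_rhs => rw [← h2]
        rw [rename_rename, rename_rename]
        have h3 : vm m e ∘ vm m (EE k.1 (hcard k)) = vm m (EE k.1 (hcard k)) ∘
            (fun p : Fin m × Fin b => (p.1, (((EE k.1 (hcard k)).trans e).trans
              (EE k.1 (hcard k)).symm) p.2)) := by
          funext p
          exact Prod.ext rfl ((EE k.1 (hcard k)).apply_symm_apply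
            (e (EE k.1 (hcard k) p.2))).symm
        rw [h3]
      · intro r i hri l
        change rowOp r i (rename (vm m (EE k.1 (hcard k))) (g l)) =
          if l = r then - rename (vm m (EE k.1 (hcard k))) (g i) else 0
        rw [rowOp_ren hE, hg.2.2.2.1 r i hri l]
        split_ifs
        · rw [map_neg]
        · rw [map_zero]
      · intro i l
        have hp : ∀ (i l : Fin m), ∑ j, pderiv (i, j) (rename (vm m (EE k.1 (hcard k))) (g l)) =
            rename (vm m (EE k.1 (hcard k))) (∑ j, pderiv (i, j) (g l)) := by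
          intro i l
          rw [map_sum]
          symm
          refine Fintype.sum_equiv (EE k.1 (hcard k)) _ _ fun j => ?_
          exact (pderiv_rename (vm_injective hE) (i, j) (g l)).symm
        change ∑ j, pderiv (i, j) (rename (vm m (EE k.1 (hcard k))) (g l)) =
          ∑ j, pderiv (l, j) (rename (vm m (EE k.1 (hcard k))) (g i))
        rw [hp i l, hp l i, hg.2.2.2.2 i l]
      · intro l u hu i j hj
        by_contra hne
        obtain ⟨v, hv, hv1, -⟩ := coeff_ren hE hne
        have hks := hmem g hg l v hv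
        apply hdet g hg l v hv hks
        have h9 := congrFun (hk' ⟨ct S v, hks⟩ (Finset.mem_univ _) (by
          change k.1.sum < (ct S v).sum
          have h3 := height_lt (fun j => hlarge k.1 k.2 _
            (Multiset.mem_toList.1 (List.get_mem k.1.toList j))) hu i j hj
          have h4 : ∑ j : Fin k.1.toList.length, k.1.toList.get j = k.1.sum := by
            rw [← List.sum_ofFn, List.ofFn_get, ← Multiset.sum_coe, Multiset.coe_toList]
          have h5 : ∑ x, lg S (cs (u + Finsupp.single (i, j) 1) x) = (ct S v).sum := by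
            rw [sum_ct]
            symm
            refine Fintype.sum_equiv (EE k.1 (hcard k)) _ _ fun j' => ?_
            congr 1
            exact Finset.sum_congr rfl fun i' _ => (hv1 i' j').symm
          rw [h4, h5] at h3
          exact h3)) l
        exact h9)
    (by
      intro g hg h
      funext l
      ext v
      rw [Pi.zero_apply, coeff_zero]
      by_contra hv
      exact hdet g hg l v hv (hmem g hg l v hv)
        (congrFun (h ⟨ct S v, hmem g hg l v hv⟩ (Finset.mem_univ _)) l))
  refine key.trans (le_of_eq ?_)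
  exact Finset.sum_coe_sort s fun k => Module.finrank ℂ (CK m S (Fin k.toList.length)
    (fun j => k.toList.get j) (b - Multiset.card k) mu)

end Vale.Agent.P181.EX.H398
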